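import Mathlib

namespace Vale.Agent.P343

/-- tape symbols: the two endmarkers and the letters of the alphabet -/
inductive Sym (A : Type) where
  | left : Sym A
  | right : Sym A
  | letter : A → Sym A

/-- head moves: left, stay, right -/
inductive Dir where
  | L : Dir
  | S : Dir
  | R : Dir

/-- effect of a head move on the position -/
def Dir.move : Dir → ℕ → ℕ
  | Dir.L, i => i - 1
  | Dir.S, i => i
  | Dir.R, i => i + 1

/-- two-way nondeterministic finite automata with state set `Q` over the alphabet `A` -/
structure TwoNFA (Q A : Type) where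
  init : Q
  acc : Set Q
  δ : Q → Sym A → Set (Q × Dir)
  left_ok : ∀ q q', (q', Dir.L) ∉ δ q Sym.left
  right_ok : ∀ q q', (q', Dir.R) ∉ δ q Sym.right

/-- the tape holding `w` between the endmarkers -/
def tape {A : Type} (w : List A) : List (Sym A) :=
  Sym.left :: (w.map Sym.letter ++ [Sym.right])

/-- one step between configurations (state, head position) on input `w` -/
def TwoNFA.Step {Q A : Type} (M : TwoNFA Q A) (w : List A) (c c' : Q × ℕ) : Prop :=
  ∃ s d, (tape w)[c.2]? = some s ∧ (c'.1, d) ∈ M.δ c.1 s ∧ c'.2 = d.move c.2

/-- some finite computation from the initial configuration reaches an accepting state -/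
def TwoNFA.Accepts {Q A : Type} (M : TwoNFA Q A) (w : List A) : Prop :=
  ∃ c : Q × ℕ, Relation.ReflTransGen (M.Step w) (M.init, 0) c ∧ c.1 ∈ M.acc

/-- at most one transition for each state and symbol -/
def TwoNFA.Deterministic {Q A : Type} (M : TwoNFA Q A) : Prop :=
  ∀ q s, (M.δ q s).Subsingleton

/-- the head never moves left -/
def TwoNFA.OneWay {Q A : Type} (M : TwoNFA Q A) : Prop :=
  ∀ q s q', (q', Dir.L) ∉ M.δ q s

end Vale.Agent.P343
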