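import Vale.Agent.P343.Main
import Vale.Agent.P343.Defs

namespace Vale.Agent.P343

open Module

variable {Q A : Type}

/-- choose the labelling of the cell reached by a move -/
def pick {X : Type} : Dir → X → X → X → X
  | Dir.L, a, _, _ => a
  | Dir.S, _, b, _ => b
  | Dir.R, _, _, c => c

/-- local consistency of labellings -/
def Con (D : TwoNFA Q A) (s : Sym A) (a b c : Q → ZMod 2) : Prop :=
  ∀ q, (q ∈ D.acc → b q = 0) ∧ (q ∉ D.acc → ∀ q' d, (q', d) ∈ D.δ q s → b q = pick d a b c q')

/-- the linear relation of a symbol -/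
def lam (D : TwoNFA Q A) (s : Sym A) : LR (ZMod 2) ((Q → ZMod 2) × (Q → ZMod 2)) :=
  LR.of (fun u v => u.2 = v.1 ∧ Con D s u.1 u.2 v.2)
    ⟨rfl, fun q => ⟨fun _ => rfl, fun _ q' d _ => by cases d <;> rfl⟩⟩
    (fun u v u' v' h h' => ⟨by simp [h.1, h'.1], fun q =>
      ⟨fun hq => by simp [(h.2 q).1 hq, (h'.2 q).1 hq], fun hq q' d hd => by
        have e1 := (h.2 q).2 hq q' d hd
        have e2 := (h'.2 q).2 hq q' d hd
        cases d <;> simp only [pick] at e1 e2 ⊢ <;> simp [e1, e2]⟩⟩)
    (fun c u v h => ⟨by simp [h.1], fun q =>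
      ⟨fun hq => by simp [(h.2 q).1 hq], fun hq q' d hd => by
        have e1 := (h.2 q).2 hq q' d hd
        cases d <;> simp only [pick] at e1 ⊢ <;> simp [e1]⟩⟩)

theorem lam_r (D : TwoNFA Q A) (s : Sym A) (u v) :
    (lam D s).r u v ↔ u.2 = v.1 ∧ Con D s u.1 u.2 v.2 := Iff.rfl

theorem lamL_iff (D : TwoNFA Q A) (T : List (Sym A)) (u v) :
    (T.map (lam D)).prod.r u v ↔ ∃ f : ℕ → Q → ZMod 2, u = (f 0, f 1) ∧
      v = (f T.length, f (T.length + 1)) ∧
      ∀ i s, T[i]? = some s → Con D s (f i) (f (i + 1)) (f (i + 2)) := by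
  induction T generalizing u with
  | nil =>
    simp only [List.map_nil, List.prod_nil, LR.one_r, List.length_nil]
    constructor
    · rintro rfl
      exact ⟨fun i => if i = 0 then u.1 else u.2, by simp, by simp, by simp⟩
    · rintro ⟨f, h1, h2, _⟩; rw [h1, h2]
  | cons s T ih =>
    simp only [List.map_cons, List.prod_cons, LR.mul_r, ih, lam_r, List.length_cons]
    constructor
    · rintro ⟨t, ⟨h1, h2⟩, f, rfl, h3, h4⟩
      refine ⟨fun i => Nat.casesOn i u.1 f, Prod.ext rfl h1, h3, ?_⟩
      rintro (_ | i) s' hs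
      · simp only [List.getElem?_cons_zero, Option.some.injEq] at hs
        subst hs
        simp only at h1 h2
        rw [h1] at h2
        exact h2
      · exact h4 i s' (by simpa using hs)
    · rintro ⟨f, rfl, h3, h4⟩
      exact ⟨(f 1, f 2), ⟨rfl, h4 0 s (by simp)⟩, fun i => f (i + 1), rfl, h3,
        fun i s' hs => h4 (i + 1) s' (by simpa using hs)⟩

theorem tape_zero (w : List A) : (tape w)[0]? = some Sym.left := rfl

theorem tape_length (w : List A) : (tape w).length = w.length + 2 := by simp [tape]

theorem tape_last (w : List A) : (tape w)[w.length + 1]? = some Sym.right := by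
  simp [tape]

theorem tape_mid (w : List A) {k : ℕ} (hk : k < w.length) :
    (tape w)[k + 1]? = some (Sym.letter w[k]) := by
  simp [tape, List.getElem?_append_left, hk]

theorem accepts_iff (D : TwoNFA Q A) (hD : D.Deterministic) (w : List A) :
    D.Accepts w ↔ ∀ u v, ((tape w).map (lam D)).prod.r u v → u.2 D.init = 0 := by
  classical
  constructor
  · rintro ⟨cf, h1, h2⟩ u v huv
    obtain ⟨f, rfl, -, hf⟩ := (lamL_iff D _ u v).1 huv
    have key : ∀ c, Relation.ReflTransGen (D.Step w) c cf → c.2 < (tape w).length →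
        f (c.2 + 1) c.1 = 0 := by
      intro c hc
      induction hc using Relation.ReflTransGen.head_induction_on with
      | refl =>
        intro hl
        exact (hf _ _ (List.getElem?_eq_getElem hl) _).1 h2
      | @head c c' hs _ ih =>
        intro hl
        obtain ⟨s, d, e1, e2, e3⟩ := hs
        by_cases hq : c.1 ∈ D.acc
        · exact (hf _ _ e1 _).1 hq
        rw [(hf _ _ e1 _).2 hq _ _ e2]
        cases d
        · have h0 : c.2 ≠ 0 := by
            intro h0
            rw [h0, tape_zero] at e1
            cases e1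
            exact D.left_ok _ _ e2
          simp only [Dir.move] at e3
          have := ih (by omega)
          rwa [e3, show c.2 - 1 + 1 = c.2 by omega] at this
        · simp only [Dir.move] at e3
          have := ih (by omega)
          rwa [e3] at this
        · have h0 : c.2 ≠ w.length + 1 := by
            intro h0
            rw [h0, tape_last] at e1
            cases e1
            exact D.right_ok _ _ e2
          simp only [Dir.move] at e3
          have := ih (by rw [tape_length] at hl ⊢; omega)
          rwa [e3] at this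
    exact key _ h1 (by simp [tape_length])
  · intro h
    let G : Q × ℕ → Prop := fun c => ∃ cf, Relation.ReflTransGen (D.Step w) c cf ∧ cf.1 ∈ D.acc
    let g : ℕ → Q → ZMod 2 := fun j q => if G (q, j) then 0 else 1
    have h1 := h _ _ ((lamL_iff D _ _ _).2 ⟨fun j => g (j - 1), rfl, rfl, fun i s hs q =>
      ⟨fun hq => if_pos ⟨_, Relation.ReflTransGen.refl, hq⟩, fun hq q' d hd => by
        have e1 : pick d (g (i - 1)) (g (i + 1 - 1)) (g (i + 2 - 1)) = g (d.move i) := by
          cases d <;> rfl
        rw [e1]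
        have e2 : G (q, i) ↔ G (q', d.move i) := by
          constructor
          · rintro ⟨cf, h1, h2⟩
            rcases h1.cases_head with h3 | ⟨c', ⟨s', d', e1, e2, e3⟩, h4⟩
            · rw [← h3] at h2; exact absurd h2 hq
            · simp only at e1 e2 e3
              rw [hs] at e1
              cases e1
              have e4 := hD q s e2 hd
              simp only [Prod.mk.injEq] at e4
              refine ⟨cf, ?_, h2⟩
              rw [← e4.1, ← e4.2, ← e3]
              exact h4
          · rintro ⟨cf, h1, h2⟩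
            exact ⟨cf, Relation.ReflTransGen.head ⟨s, d, hs, hd, rfl⟩ h1, h2⟩
        show (if G (q, i) then (0 : ZMod 2) else 1) = if G (q', d.move i) then 0 else 1
        simp only [e2]⟩⟩)
    by_contra hc
    have h2 : g 0 D.init = 0 := h1
    have h3 : ¬ G (D.init, 0) := hc
    simp [g, h3] at h2

/-- the one-way automaton for liveness from the point `p0` -/
def live {P : Type} (p0 : P) : TwoNFA (Option P) (RM P) where
  init := some p0
  acc := {none}
  δ q s := match q, s with
    | some u, Sym.left => {(some u, Dir.R)}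
    | some u, Sym.letter X => {c | ∃ v, X u v ∧ c = (some v, Dir.R)}
    | some _, Sym.right => {(none, Dir.S)}
    | none, _ => ∅
  left_ok q q' := by cases q <;> simp
  right_ok q q' := by cases q <;> simp

theorem live_oneWay {P : Type} (p0 : P) : (live p0).OneWay := by
  intro q s q'
  cases q <;> cases s <;> simp [live]

theorem live_accepts {P : Type} (p0 : P) (w : List (RM P)) :
    (live p0).Accepts w ↔ ∃ v, w.prod p0 v := by
  constructor
  · rintro ⟨cf, h1, h2⟩
    have key : ∀ c, Relation.ReflTransGen ((live p0).Step w) (some p0, 0) c →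
        c = (some p0, 0) ∨ (∃ v k, k ≤ w.length ∧ c = (some v, k + 1) ∧ (w.take k).prod p0 v) ∨
          (c.1 = none ∧ ∃ v, w.prod p0 v) := by
      intro c hc
      induction hc with
      | refl => exact Or.inl rfl
      | @tail c c' _ hs ih =>
        obtain ⟨s, d, e1, e2, e3⟩ := hs
        rcases ih with rfl | ⟨v, k, hk, rfl, hv⟩ | ⟨h3, _⟩
        · rw [tape_zero] at e1
          cases e1
          simp only [live, Set.mem_singleton_iff, Prod.mk.injEq] at e2
          obtain ⟨e4, rfl⟩ := e2
          exact Or.inr (Or.inl ⟨p0, 0, Nat.zero_le _, Prod.ext e4 e3, rfl⟩)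
        · rcases hk.eq_or_lt with rfl | hk
          · rw [tape_last] at e1
            cases e1
            simp only [live, Set.mem_singleton_iff, Prod.mk.injEq] at e2
            exact Or.inr (Or.inr ⟨e2.1, v, by simpa using hv⟩)
          · rw [tape_mid w hk] at e1
            cases e1
            obtain ⟨v', h4, h5⟩ := e2
            simp only [Prod.mk.injEq] at h5
            obtain ⟨e4, rfl⟩ := h5
            refine Or.inr (Or.inl ⟨v', k + 1, hk, Prod.ext e4 e3, ?_⟩)
            rw [List.take_succ_eq_append_getElem hk, List.prod_append, List.prod_singleton]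
            exact ⟨v, hv, h4⟩
        · rw [h3] at e2
          simp [live] at e2
    rcases key cf h1 with rfl | ⟨v, k, hk, rfl, hv⟩ | ⟨_, h3⟩
    · simp [live] at h2
    · simp [live] at h2
    · exact h3
  · rintro ⟨v, hv⟩
    have key : ∀ k, k ≤ w.length → ∀ v, (w.take k).prod p0 v →
        Relation.ReflTransGen ((live p0).Step w) (some p0, 0) (some v, k + 1) := by
      intro k
      induction k with
      | zero =>
        intro _ v hv
        have : p0 = v := hv
        subst this
        exact Relation.ReflTransGen.single ⟨Sym.left, Dir.R, rfl, rfl, rfl⟩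
      | succ k ih =>
        intro hk v hv
        rw [List.take_succ_eq_append_getElem hk, List.prod_append, List.prod_singleton] at hv
        obtain ⟨t, h1, h2⟩ := hv
        exact (ih (by omega) t h1).tail ⟨_, Dir.R, tape_mid w hk, ⟨v, h2, rfl⟩, rfl⟩
    exact ⟨(none, w.length + 1), (key _ le_rfl v (by simpa using hv)).tail
      ⟨_, Dir.S, tape_last w, rfl, rfl⟩, rfl⟩

theorem lower_bound (n : ℕ) {P : Type} [Fintype P] (hP : 31 * n + 2 ≤ Fintype.card P) (p0 : P)
    [Fintype Q] (D : TwoNFA Q (RM P)) (hD : D.Deterministic)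
    (h : ∀ w, D.Accepts w ↔ (live p0).Accepts w) : 2 ^ n ≤ 2 * Fintype.card Q := by
  classical
  let S : LR (ZMod 2) ((Q → ZMod 2) × (Q → ZMod 2)) → RM P → Prop := fun y R =>
    ∃ w : List (RM P), y = ((w.map Sym.letter).map (lam D)).prod ∧ R = w.prod
  have hw : ∀ (w : List (RM P)) (u v : P), w.prod u v ↔ ∀ a b, (lam D Sym.left *
      (lam D (Sym.letter fun x y => x = p0 ∧ y = u) * ((w.map Sym.letter).map (lam D)).prod *
        lam D (Sym.letter fun x y => x = v ∧ y = v) * lam D Sym.right)).r a b →
        a.2 D.init = 0 := by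
    intro w u v
    let E1 : RM P := fun x y => x = p0 ∧ y = u
    let E2 : RM P := fun x y => x = v ∧ y = v
    have h1 := (accepts_iff D hD (E1 :: (w ++ [E2]))).symm.trans ((h _).trans (live_accepts _ _))
    simp only [tape, List.map_cons, List.map_append, List.prod_cons, List.prod_append,
      List.map_nil, List.prod_nil, mul_one, List.cons_append] at h1
    simp only [mul_assoc] at h1 ⊢
    rw [h1]
    constructor
    · intro h2; exact ⟨v, u, ⟨rfl, rfl⟩, v, h2, rfl, rfl⟩
    · rintro ⟨_, _, ⟨_, rfl⟩, _, h2, rfl, _⟩; exact h2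
  have hS : Sys S := by
    refine ⟨?_, fun R => ⟨_, [R], rfl, by simp⟩, ?_⟩
    · rintro y z R R' ⟨w, rfl, rfl⟩ ⟨w', rfl, rfl⟩
      exact ⟨w ++ w', by simp, by simp⟩
    · rintro y R R' ⟨w, h1, rfl⟩ ⟨w', h2, rfl⟩
      refine RM.ext' fun u v => ?_
      rw [hw, hw, ← h1, ← h2]
  obtain ⟨a, b, hab⟩ := Fintype.exists_pair_of_one_lt_card (α := P) (by omega)
  obtain ⟨y, hy⟩ := hS.surj (tv a b)
  obtain ⟨m, hm, hid⟩ := exists_idem_pow y
  have h1 := claim_all n P hP S hS a b hab 1 (y ^ m) (mul_one _) hid (by simp) ⟨[], rfl, rfl⟩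
    (pow_idem (tv_idem hab) hm ▸ hS.pow hy hm)
  have h2 := rk_nonneg (y ^ m)
  have h3 := rk_le_finrank (1 : LR (ZMod 2) ((Q → ZMod 2) × (Q → ZMod 2)))
  rw [Module.finrank_prod, Module.finrank_fintype_fun_eq_card] at h3
  have : (2 : ℤ) ^ n ≤ 2 * Fintype.card Q := by push_cast at h3; linarith
  exact_mod_cast this

end Vale.Agent.P343
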