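import Mathlib

namespace Vale.Agent.P343

open Module

theorem exists_idem_pow {M : Type*} [Monoid M] [Finite M] (a : M) :
    ∃ n, 1 ≤ n ∧ a ^ n * a ^ n = a ^ n := by
  obtain ⟨i, j, hne, h⟩ := Finite.exists_ne_map_eq_of_infinite (fun n : ℕ => a ^ n)
  wlog hij : i < j generalizing i j
  · exact this j i hne.symm h.symm (by omega)
  obtain ⟨d, rfl⟩ := Nat.exists_eq_add_of_lt hij
  have h1 : ∀ k m, a ^ (i + m + k * (d + 1)) = a ^ (i + m) := by
    intro k
    induction k with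
    | zero => simp
    | succ k ih =>
      intro m
      have : i + m + (k + 1) * (d + 1) = (i + d + 1) + (m + k * (d + 1)) := by ring
      rw [this, pow_add, ← h, ← pow_add, ← add_assoc, ih]
  refine ⟨(i + 1) * (d + 1), Nat.mul_pos (by omega) (by omega), ?_⟩
  have h2 : (i + 1) * (d + 1) = i + (i * d + d + 1) := by ring
  rw [← pow_add]
  conv_lhs => rw [show (i + 1) * (d + 1) + (i + 1) * (d + 1)
    = i + (i * d + d + 1) + (i + 1) * (d + 1) by ring]
  rw [h1, ← h2]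

variable {F : Type} [Field F] {V : Type} [AddCommGroup V] [Module F V]

/-- linear relations -/
def LR (F V : Type) [Field F] [AddCommGroup V] [Module F V] := Submodule F (V × V)

/-- membership in a linear relation -/
def LR.r (x : LR F V) (u v : V) : Prop := (u, v) ∈ (show Submodule F (V × V) from x)

theorem LR.ext' {x y : LR F V} (h : ∀ u v, x.r u v ↔ y.r u v) : x = y :=
  Submodule.ext fun p => h p.1 p.2

theorem LR.r_zero (x : LR F V) : x.r 0 0 := Submodule.zero_mem _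

theorem LR.r_add {x : LR F V} {u v u' v' : V} (h : x.r u v) (h' : x.r u' v') :
    x.r (u + u') (v + v') := Submodule.add_mem _ h h'

theorem LR.r_sub {x : LR F V} {u v u' v' : V} (h : x.r u v) (h' : x.r u' v') :
    x.r (u - u') (v - v') := Submodule.sub_mem _ h h'

theorem LR.r_smul {x : LR F V} {u v : V} (c : F) (h : x.r u v) :
    x.r (c • u) (c • v) := Submodule.smul_mem _ c h

/-- build a linear relation -/
def LR.of (r : V → V → Prop) (h0 : r 0 0)
    (ha : ∀ u v u' v', r u v → r u' v' → r (u + u') (v + v'))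
    (hs : ∀ (c : F) u v, r u v → r (c • u) (c • v)) : LR F V where
  carrier := {p | r p.1 p.2}
  zero_mem' := h0
  add_mem' := fun h h' => ha _ _ _ _ h h'
  smul_mem' := fun c _ h => hs c _ _ h

instance : Mul (LR F V) := ⟨fun x y => LR.of (fun u w => ∃ v, x.r u v ∧ y.r v w)
  ⟨0, x.r_zero, y.r_zero⟩
  (fun _ _ _ _ ⟨v, h1, h2⟩ ⟨v', h1', h2'⟩ => ⟨v + v', LR.r_add h1 h1', LR.r_add h2 h2'⟩)
  (fun c _ _ ⟨v, h1, h2⟩ => ⟨c • v, LR.r_smul c h1, LR.r_smul c h2⟩)⟩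

instance : One (LR F V) := ⟨LR.of (fun u w => u = w) rfl
  (fun _ _ _ _ h h' => by rw [h, h']) (fun _ _ _ h => by rw [h])⟩

theorem LR.mul_r {x y : LR F V} {u w : V} : (x * y).r u w ↔ ∃ v, x.r u v ∧ y.r v w := Iff.rfl

theorem LR.one_r {u w : V} : (1 : LR F V).r u w ↔ u = w := Iff.rfl

instance : Monoid (LR F V) where
  mul_assoc x y z := LR.ext' fun u w => by
    simp only [LR.mul_r]
    constructor
    · rintro ⟨v, ⟨t, h1, h2⟩, h3⟩; exact ⟨t, h1, v, h2, h3⟩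
    · rintro ⟨t, h1, v, h2, h3⟩; exact ⟨v, ⟨t, h1, h2⟩, h3⟩
  one_mul x := LR.ext' fun u w => by simp [LR.mul_r, LR.one_r]
  mul_one x := LR.ext' fun u w => by simp [LR.mul_r, LR.one_r]

instance [Finite V] : Finite (LR F V) :=
  Finite.of_injective (fun x : LR F V => x.r) fun _ _ h =>
    LR.ext' fun u v => Eq.to_iff (congrFun (congrFun h u) v)

/-- fixed vectors -/
def Fix (x : LR F V) : Submodule F V where
  carrier := {u | x.r u u}
  zero_mem' := x.r_zero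
  add_mem' := fun h h' => LR.r_add h h'
  smul_mem' := fun c _ h => LR.r_smul c h

/-- fixed vectors related to zero -/
def Zs (x : LR F V) : Submodule F V where
  carrier := {u | x.r u u ∧ x.r u 0}
  zero_mem' := ⟨x.r_zero, x.r_zero⟩
  add_mem' := fun h h' => ⟨LR.r_add h.1 h'.1, by simpa using LR.r_add h.2 h'.2⟩
  smul_mem' := fun c _ h => ⟨LR.r_smul c h.1, by simpa using LR.r_smul c h.2⟩

/-- differences -/
def Mov (x : LR F V) : Submodule F V where
  carrier := {m | ∃ u v, x.r u v ∧ m = u - v}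
  zero_mem' := ⟨0, 0, x.r_zero, by simp⟩
  add_mem' := by
    rintro _ _ ⟨u, v, h, rfl⟩ ⟨u', v', h', rfl⟩
    exact ⟨u + u', v + v', LR.r_add h h', by abel⟩
  smul_mem' := by
    rintro c _ ⟨u, v, h, rfl⟩
    exact ⟨c • u, c • v, LR.r_smul c h, by rw [smul_sub]⟩

theorem mem_Fix {x : LR F V} {u : V} : u ∈ Fix x ↔ x.r u u := Iff.rfl
theorem mem_Zs {x : LR F V} {u : V} : u ∈ Zs x ↔ x.r u u ∧ x.r u 0 := Iff.rfl
theorem mem_Mov {x : LR F V} {m : V} : m ∈ Mov x ↔ ∃ u v, x.r u v ∧ m = u - v := Iff.rfl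

theorem Zs_le_Fix (x : LR F V) : Zs x ≤ Fix x := fun _ h => h.1

theorem idem_trans {x : LR F V} (hx : x * x = x) {u v w : V} (h1 : x.r u v) (h2 : x.r v w) :
    x.r u w := by
  rw [← hx]; exact ⟨v, h1, h2⟩

theorem idem_mid [Finite V] {x : LR F V} (hx : x * x = x) {u v : V} (h : x.r u v) :
    ∃ m, x.r m m ∧ x.r u m ∧ x.r m v := by
  have h1 : ∀ a : {a // x.r u a ∧ x.r a v} ⊕ Unit, ∃ b : {a // x.r u a ∧ x.r a v},
      x.r (Sum.elim (fun a => a.1) (fun _ => u) a) b.1 := by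
    rintro (⟨a, ha1, ha2⟩ | _)
    · rw [← hx] at ha2
      obtain ⟨b, hb1, hb2⟩ := ha2
      exact ⟨⟨b, idem_trans hx ha1 hb1, hb2⟩, hb1⟩
    · rw [← hx] at h
      obtain ⟨b, hb1, hb2⟩ := h
      exact ⟨⟨b, hb1, hb2⟩, hb1⟩
  choose g hg using h1
  let s : ℕ → {a // x.r u a ∧ x.r a v} := fun n => (fun a => g (Sum.inl a))^[n] (g (Sum.inr ()))
  have hs : ∀ n, x.r (s n).1 (s (n + 1)).1 := by
    intro n
    have : s (n + 1) = g (Sum.inl (s n)) := by simp only [s, Function.iterate_succ_apply']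
    rw [this]; exact hg (Sum.inl (s n))
  have hs2 : ∀ n k, x.r (s n).1 (s (n + k + 1)).1 := by
    intro n k
    induction k with
    | zero => exact hs n
    | succ k ih => exact idem_trans hx ih (hs _)
  obtain ⟨i, j, hne, h⟩ := Finite.exists_ne_map_eq_of_infinite s
  wlog hij : i < j generalizing i j
  · exact this j i hne.symm h.symm (by omega)
  obtain ⟨d, rfl⟩ := Nat.exists_eq_add_of_lt hij
  refine ⟨(s i).1, ?_, (s i).2.1, (s i).2.2⟩
  have := hs2 i d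
  rwa [← h] at this

theorem Mov_inf_Fix [Finite V] {x : LR F V} (hx : x * x = x) {m : V} (h1 : m ∈ Mov x)
    (h2 : m ∈ Fix x) : m ∈ Zs x := by
  obtain ⟨u, v, h, rfl⟩ := h1
  obtain ⟨t, ht, h3, h4⟩ := idem_mid hx h
  have h5 : x.r (u - t) 0 := by simpa using LR.r_sub h3 ht
  have h6 : x.r 0 (t - v) := by simpa using LR.r_sub ht h4
  have h7 : x.r (t - v) (u - v) := by simpa using LR.r_sub h2 h5
  have h8 : x.r 0 (u - v) := idem_trans hx h6 h7
  exact ⟨h2, by simpa using LR.r_sub h2 h8⟩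

/-- rank of an idempotent -/
noncomputable def rk (x : LR F V) : ℤ := (finrank F (Fix x) : ℤ) - finrank F (Zs x)

theorem finrank_map_mkQ [FiniteDimensional F V] {Z A : Submodule F V} (h : Z ≤ A) :
    finrank F (A.map Z.mkQ) + finrank F Z = finrank F A := by
  have h1 := LinearMap.finrank_range_add_finrank_ker (Z.mkQ ∘ₗ A.subtype)
  rw [LinearMap.range_comp, Submodule.range_subtype, LinearMap.ker_comp, Submodule.ker_mkQ,
    (Submodule.comapSubtypeEquivOfLe h).finrank_eq] at h1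
  exact h1

theorem rk_le_of_J [Finite V] {x x' a b : LR F V} (hx : x * x = x) (h : x' = a * x * b) :
    rk x' ≤ rk x := by
  have : FiniteDimensional F V := Module.Finite.of_finite
  let R : Submodule F (V × V) :=
    { carrier := {p | x'.r p.1 p.1 ∧ x.r p.2 p.2 ∧ (a * x).r p.1 p.2 ∧ (x * b).r p.2 p.1}
      zero_mem' := ⟨LR.r_zero _, LR.r_zero _, LR.r_zero _, LR.r_zero _⟩
      add_mem' := fun h h' => ⟨LR.r_add h.1 h'.1, LR.r_add h.2.1 h'.2.1,
        LR.r_add h.2.2.1 h'.2.2.1, LR.r_add h.2.2.2 h'.2.2.2⟩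
      smul_mem' := fun c _ h => ⟨LR.r_smul c h.1, LR.r_smul c h.2.1, LR.r_smul c h.2.2.1,
        LR.r_smul c h.2.2.2⟩ }
  let φ1 : R →ₗ[F] V ⧸ Zs x' := (Zs x').mkQ ∘ₗ LinearMap.fst F V V ∘ₗ R.subtype
  let φ2 : R →ₗ[F] V ⧸ Zs x := (Zs x).mkQ ∘ₗ LinearMap.snd F V V ∘ₗ R.subtype
  have hk : LinearMap.ker φ2 ≤ LinearMap.ker φ1 := by
    rintro ⟨⟨m', m⟩, h1, h2, h3, h4⟩ hm
    have hm' : m ∈ Zs x := by simpa [φ2] using hm
    have : m' ∈ Zs x' := by
      refine ⟨h1, ?_⟩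
      rw [h, ← hx, ← mul_assoc]
      exact ⟨0, ⟨m, h3, hm'.2⟩, b.r_zero⟩
    simpa [φ1] using this
  have h1 : (Fix x').map (Zs x').mkQ ≤ LinearMap.range φ1 := by
    rintro _ ⟨m', hm', rfl⟩
    have h2 : (a * x * b).r m' m' := h ▸ hm'
    obtain ⟨t, ⟨s, h3, h4⟩, h5⟩ := h2
    obtain ⟨m, h6, h7, h8⟩ := idem_mid hx h4
    exact ⟨⟨(m', m), hm', h6, ⟨s, h3, h7⟩, ⟨t, h8, h5⟩⟩, rfl⟩
  have h2 : LinearMap.range φ2 ≤ (Fix x).map (Zs x).mkQ := by
    rintro _ ⟨⟨⟨m', m⟩, h1, h2, h3, h4⟩, rfl⟩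
    exact ⟨m, h2, rfl⟩
  have e1 := LinearMap.finrank_range_add_finrank_ker φ1
  have e2 := LinearMap.finrank_range_add_finrank_ker φ2
  have e3 := Submodule.finrank_mono hk
  have e4 := Submodule.finrank_mono h1
  have e5 := Submodule.finrank_mono h2
  have e6 := finrank_map_mkQ (Zs_le_Fix x)
  have e7 := finrank_map_mkQ (Zs_le_Fix x')
  unfold rk
  omega

/-- closeness of `y` to the idempotent `e` -/
def Cl (e : LR F V) (A M : Submodule F V) (y : LR F V) : Prop :=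
  y = e * y * e ∧ A ≤ Fix y ∧ ∀ u v, e.r u u → e.r v v → y.r u v → u - v ∈ M

/-- admissible pair -/
def Good (e : LR F V) (A M : Submodule F V) : Prop := A ≤ Fix e ∧ Zs e ≤ M

/-- cost of a pair -/
noncomputable def cost (e : LR F V) (A M : Submodule F V) : ℤ :=
  (finrank F (Fix e) : ℤ) - finrank F A + finrank F M - finrank F (Zs e)

theorem left_of_sand {M : Type*} [Monoid M] {e y : M} (he : e * e = e) (h : y = e * y * e) :
    e * y = y := by
  rw [h, ← mul_assoc, ← mul_assoc, he]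

theorem right_of_sand {M : Type*} [Monoid M] {e y : M} (he : e * e = e) (h : y = e * y * e) :
    y * e = y := by
  rw [h, mul_assoc, he]

theorem mid_of_sand [Finite V] {e y z : LR F V} (he : e * e = e) (hy : y * e = y)
    (hz : e * z = z) {u w : V} (h : (y * z).r u w) : ∃ m, e.r m m ∧ y.r u m ∧ z.r m w := by
  obtain ⟨v, h1, h2⟩ := h
  rw [← hy] at h1
  obtain ⟨t, h3, h4⟩ := h1
  obtain ⟨m, h5, h6, h7⟩ := idem_mid he h4
  exact ⟨m, h5, hy ▸ ⟨t, h3, h6⟩, hz ▸ ⟨v, h7, h2⟩⟩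

theorem Cl.mul [Finite V] {e y z : LR F V} {A M : Submodule F V} (he : e * e = e)
    (hy : Cl e A M y) (hz : Cl e A M z) : Cl e A M (y * z) := by
  refine ⟨?_, fun u hu => ⟨u, hy.2.1 hu, hz.2.1 hu⟩, fun u w hu hw h => ?_⟩
  · rw [← mul_assoc, left_of_sand he hy.1, mul_assoc, right_of_sand he hz.1]
  · obtain ⟨m, h1, h2, h3⟩ := mid_of_sand he (right_of_sand he hy.1) (left_of_sand he hz.1) h
    have := M.add_mem (hy.2.2 u m hu h1 h2) (hz.2.2 m w h1 hw h3)
    simpa using this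

theorem Cl.pow [Finite V] {e y : LR F V} {A M : Submodule F V} (he : e * e = e)
    (hy : Cl e A M y) {n : ℕ} (hn : 1 ≤ n) : Cl e A M (y ^ n) := by
  induction n, hn using Nat.le_induction with
  | base => simpa using hy
  | succ n _ ih => rw [pow_succ]; exact ih.mul he hy

theorem Cl.mono {e y : LR F V} {A M A' M' : Submodule F V} (hy : Cl e A M y) (hA : A' ≤ A)
    (hM : M ≤ M') : Cl e A' M' y :=
  ⟨hy.1, hA.trans hy.2.1, fun u v hu hv h => hM (hy.2.2 u v hu hv h)⟩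

theorem Cl.self [Finite V] {e : LR F V} {A M : Submodule F V} (he : e * e = e)
    (hg : Good e A M) : Cl e A M e :=
  ⟨by rw [he, he], hg.1, fun u v hu hv h => hg.2 (Mov_inf_Fix he ⟨u, v, h, rfl⟩
    ((Fix e).sub_mem hu hv))⟩

theorem cost_inf_sup [FiniteDimensional F V] {e : LR F V} {A M A' M' : Submodule F V}
    (h : Good e A M) (h' : Good e A' M') :
    Good e (A ⊓ A') (M ⊔ M') ∧ cost e (A ⊓ A') (M ⊔ M') ≤ cost e A M + cost e A' M' := by
  refine ⟨⟨inf_le_left.trans h.1, h.2.trans le_sup_left⟩, ?_⟩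
  have e1 := Submodule.finrank_sup_add_finrank_inf_eq A A'
  have e2 := Submodule.finrank_sup_add_finrank_inf_eq M M'
  have e3 := Submodule.finrank_mono (sup_le h.1 h'.1)
  have e4 := Submodule.finrank_mono (le_inf h.2 h'.2)
  unfold cost
  omega

theorem Fix_le_sup [Finite V] {e x : LR F V} (he : e * e = e) (hx : x * x = x)
    (h : x = e * x * e) : Fix x ≤ (Fix e ⊓ Fix x) ⊔ Zs x := by
  intro m hm
  have h1 : (x * x).r m m := by rw [hx]; exact hm
  obtain ⟨t, h2, h3, h4⟩ := mid_of_sand he (right_of_sand he h) (left_of_sand he h) h1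
  have h5 : x.r t t := idem_trans hx h4 h3
  have h6 : m - t ∈ Zs x := Mov_inf_Fix hx ⟨m, t, h3, rfl⟩ ((Fix x).sub_mem hm h5)
  have : m = t + (m - t) := by abel
  rw [this]
  exact Submodule.add_mem_sup ⟨h2, h5⟩ h6

theorem rk_rel [Finite V] {e x : LR F V} (he : e * e = e) (hx : x * x = x)
    (h : x = e * x * e) :
    rk x = (finrank F ↥(Fix e ⊓ Fix x) : ℤ) - finrank F ↥(Fix e ⊓ Zs x) := by
  have : FiniteDimensional F V := Module.Finite.of_finite
  have e1 := Submodule.finrank_sup_add_finrank_inf_eq (Fix e ⊓ Fix x) (Zs x)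
  have e2 : (Fix e ⊓ Fix x) ⊔ Zs x = Fix x :=
    le_antisymm (sup_le inf_le_right (Zs_le_Fix x)) (Fix_le_sup he hx h)
  have e3 : (Fix e ⊓ Fix x) ⊓ Zs x = Fix e ⊓ Zs x := by
    rw [inf_assoc, inf_eq_right.2 (Zs_le_Fix x)]
  rw [e2, e3] at e1
  unfold rk
  omega

theorem Zs_le_Zs {e x : LR F V} (he : e * e = e) (h : x = e * x * e) : Zs e ≤ Zs x := by
  intro z hz
  have h1 : e.r 0 z := by simpa using LR.r_sub hz.1 hz.2
  have h2 : x.r z 0 := by rw [← left_of_sand he h]; exact ⟨0, hz.2, x.r_zero⟩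
  have h3 : x.r 0 z := by rw [← right_of_sand he h]; exact ⟨0, x.r_zero, h1⟩
  exact ⟨by simpa using LR.r_add h2 h3, h2⟩

theorem lemma1 [Finite V] {e x : LR F V} (he : e * e = e) (hx : x * x = x)
    (h : x = e * x * e) :
    Cl e (Fix e ⊓ Fix x) (Fix e ⊓ Mov x) x ∧ Good e (Fix e ⊓ Fix x) (Fix e ⊓ Mov x) ∧
      cost e (Fix e ⊓ Fix x) (Fix e ⊓ Mov x) ≤ 2 * (rk e - rk x) ∧
      (finrank F (Fix e) : ℤ) - finrank F ↥(Fix e ⊓ Fix x) ≤ rk e - rk x ∧
      (finrank F ↥(Fix e ⊓ Mov x) : ℤ) - finrank F (Zs e) ≤ rk e - rk x := by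
  have : FiniteDimensional F V := Module.Finite.of_finite
  have hZ : Zs e ≤ Fix e ⊓ Zs x := le_inf (Zs_le_Fix e) (Zs_le_Zs he h)
  refine ⟨⟨h, inf_le_right, fun u v hu hv huv => ⟨(Fix e).sub_mem hu hv, u, v, huv, rfl⟩⟩,
    ⟨inf_le_left, le_inf (Zs_le_Fix e) fun z hz => ⟨z, 0, (Zs_le_Zs he h hz).2, by simp⟩⟩, ?_⟩
  have e0 := rk_rel he hx h
  have e1 := Submodule.finrank_sup_add_finrank_inf_eq (Fix e ⊓ Fix x) (Fix e ⊓ Mov x)
  have e2 := Submodule.finrank_mono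
    (show (Fix e ⊓ Fix x) ⊔ (Fix e ⊓ Mov x) ≤ Fix e from sup_le inf_le_left inf_le_left)
  have e3 := Submodule.finrank_mono
    (show (Fix e ⊓ Fix x) ⊓ (Fix e ⊓ Mov x) ≤ Fix e ⊓ Zs x from
      fun m hm => ⟨hm.1.1, Mov_inf_Fix hx hm.2.2 hm.1.2⟩)
  have e4 := Submodule.finrank_mono hZ
  unfold cost
  unfold rk at e0 ⊢
  omega

theorem eq_of_rk_le [Finite V] {e x : LR F V} (he : e * e = e) (hx : x * x = x)
    (h : x = e * x * e) (hr : rk e ≤ rk x) : x = e := by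
  have : FiniteDimensional F V := Module.Finite.of_finite
  obtain ⟨h1, h2, -, h3, h4⟩ := lemma1 he hx h
  have e1 : Fix e ⊓ Fix x = Fix e := Submodule.eq_of_le_of_finrank_le inf_le_left (by omega)
  have e2 : Zs e = Fix e ⊓ Mov x := Submodule.eq_of_le_of_finrank_le h2.2 (by omega)
  rw [e1, ← e2] at h1
  refine LR.ext' fun u v => ⟨fun huv => ?_, fun huv => ?_⟩
  · rw [h] at huv
    obtain ⟨b, ⟨a, ha, hab⟩, hb⟩ := huv
    obtain ⟨a', ha1, ha2, ha3⟩ := idem_mid he ha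
    obtain ⟨b', hb1, hb2, hb3⟩ := idem_mid he hb
    have h5 : x.r a' b' := by rw [h]; exact ⟨b, ⟨a, ha3, hab⟩, hb2⟩
    have h6 := (h1.2.2 a' b' ha1 hb1 h5).2
    have h7 : e.r a' b' := by simpa using LR.r_add h6 hb1
    exact idem_trans he ha2 (idem_trans he h7 hb3)
  · obtain ⟨m, hm1, hm2, hm3⟩ := idem_mid he huv
    rw [h]
    exact ⟨m, ⟨m, hm2, h1.2.1 hm1⟩, hm3⟩

theorem lemma2_cl [Finite V] {e e0 y : LR F V} {A M : Submodule F V} (he : e * e = e)
    (he0 : e0 * e0 = e0) (h : e0 = e * e0 * e) (hy : Cl e A M y) :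
    Cl e0 (Fix e0 ⊓ A ⊔ Zs e0) (Fix e0 ⊓ ((Fix e ⊓ Mov e0) ⊔ M) ⊔ Zs e0) (e0 * y * e0) := by
  have hs : e0 * y * e0 = e0 * (e0 * y * e0) * e0 := by
    simp only [← mul_assoc, he0]; simp only [mul_assoc, he0]
  refine ⟨hs, sup_le (fun u hu => ⟨u, ⟨u, hu.1, hy.2.1 hu.2⟩, hu.1⟩)
    ((Zs_le_Zs he0 hs).trans (Zs_le_Fix _)), fun u v hu hv huv => ?_⟩
  obtain ⟨b', hb1, hb2, hb3⟩ := mid_of_sand (y := e0 * y) (z := e0) he
    (by rw [mul_assoc, right_of_sand he hy.1]) (left_of_sand he h) huv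
  obtain ⟨a', ha1, ha2, ha3⟩ := mid_of_sand he (right_of_sand he h) (left_of_sand he hy.1) hb2
  have h1 := hy.2.2 a' b' ha1 hb1 ha3
  obtain ⟨u', hu', zu, hzu, rfl⟩ := Submodule.mem_sup.1 (Fix_le_sup he he0 h hu)
  obtain ⟨v', hv', zv, hzv, rfl⟩ := Submodule.mem_sup.1 (Fix_le_sup he he0 h hv)
  have : u' + zu - (v' + zv) = (u' - v') + (zu - zv) := by abel
  rw [this]
  refine Submodule.add_mem_sup ⟨(Fix e0).sub_mem hu'.2 hv'.2, ?_⟩ ((Zs e0).sub_mem hzu hzv)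
  have : u' - v' = ((u' - a') + (b' - v')) + (a' - b') := by abel
  rw [this]
  refine Submodule.add_mem_sup ((Fix e ⊓ Mov e0).add_mem ⟨(Fix e).sub_mem hu'.1 ha1, u', a', ?_, rfl⟩
    ⟨(Fix e).sub_mem hb1 hv'.1, b', v', ?_, rfl⟩) h1
  · simpa using LR.r_sub ha2 hzu.2
  · have h2 : e0.r 0 zv := by simpa using LR.r_sub hzv.1 hzv.2
    simpa using LR.r_sub hb3 h2

theorem lemma2 [Finite V] {e e0 : LR F V} {A M : Submodule F V} (he : e * e = e)
    (he0 : e0 * e0 = e0) (h : e0 = e * e0 * e) (hg : Good e A M) :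
    ∃ A' M', Good e0 A' M' ∧ cost e0 A' M' ≤ cost e A M ∧
      ∀ y, Cl e A M y → Cl e0 A' M' (e0 * y * e0) := by
  have : FiniteDimensional F V := Module.Finite.of_finite
  refine ⟨_, _, ⟨sup_le inf_le_left (Zs_le_Fix _), le_sup_right⟩, ?_,
    fun y hy => lemma2_cl he he0 h hy⟩
  have a1 := Submodule.finrank_sup_add_finrank_inf_eq (Fix e ⊓ Fix e0) (Zs e0)
  have a2 : (Fix e ⊓ Fix e0) ⊔ Zs e0 = Fix e0 :=
    le_antisymm (sup_le inf_le_right (Zs_le_Fix _)) (Fix_le_sup he he0 h)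
  rw [a2] at a1
  have a3 := Submodule.finrank_sup_add_finrank_inf_eq (Fix e0 ⊓ A) (Zs e0)
  have a4 := Submodule.finrank_sup_add_finrank_inf_eq (Fix e ⊓ Fix e0) A
  have a5 := Submodule.finrank_mono
    (show (Fix e ⊓ Fix e0) ⊔ A ≤ Fix e from sup_le inf_le_left hg.1)
  have a6 := Submodule.finrank_mono
    (show (Fix e ⊓ Fix e0) ⊓ A ≤ Fix e0 ⊓ A from inf_le_inf_right _ inf_le_right)
  have a7 := Submodule.finrank_mono
    (show (Fix e0 ⊓ A) ⊓ Zs e0 ≤ (Fix e ⊓ Fix e0) ⊓ Zs e0 from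
      fun m hm => ⟨⟨hg.1 hm.1.2, hm.1.1⟩, hm.2⟩)
  set N := Fix e ⊓ Mov e0 with hN
  set K := Fix e0 ⊓ (N ⊔ M) with hK
  have b1 := Submodule.finrank_sup_add_finrank_inf_eq K (Zs e0)
  have b2 := Submodule.finrank_sup_add_finrank_inf_eq K N
  have b3 := Submodule.finrank_sup_add_finrank_inf_eq N M
  have b4 := Submodule.finrank_mono
    (show K ⊔ N ≤ N ⊔ M from sup_le inf_le_right le_sup_left)
  have b5 := Submodule.finrank_mono
    (show K ⊓ N ≤ K ⊓ Zs e0 from fun m hm => ⟨hm.1, Mov_inf_Fix he0 hm.2.2 hm.1.1⟩)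
  have b6 := Submodule.finrank_mono
    (show Zs e ≤ N ⊓ M from le_inf (le_inf (Zs_le_Fix e)
      fun z hz => ⟨z, 0, (Zs_le_Zs he h hz).2, by simp⟩) hg.2)
  unfold cost
  omega

theorem rk_ge_of_cl [Finite V] {e f : LR F V} {A M : Submodule F V} (he : e * e = e)
    (hf : f * f = f) (hg : Good e A M) (h : Cl e A M f) : rk e - cost e A M ≤ rk f := by
  have : FiniteDimensional F V := Module.Finite.of_finite
  have e0 := rk_rel he hf h.1
  have a1 := Submodule.finrank_mono (show A ≤ Fix e ⊓ Fix f from le_inf hg.1 h.2.1)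
  have a2 := Submodule.finrank_mono (show Fix e ⊓ Zs f ≤ M from fun m hm => by
    simpa using h.2.2 m 0 hm.1 e.r_zero hm.2.2)
  unfold cost
  unfold rk at e0 ⊢
  omega

theorem rk_nonneg [Finite V] (x : LR F V) : 0 ≤ rk x := by
  have : FiniteDimensional F V := Module.Finite.of_finite
  have := Submodule.finrank_mono (Zs_le_Fix x)
  unfold rk; omega

theorem rk_le_finrank [Finite V] (x : LR F V) : rk x ≤ finrank F V := by
  have : FiniteDimensional F V := Module.Finite.of_finite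
  have := Submodule.finrank_le (Fix x)
  unfold rk; omega

theorem cost_family [Finite V] {e : LR F V} {ι : Type} (s : Finset ι) (A M : ι → Submodule F V)
    (c : ℤ) (h : ∀ i ∈ s, Good e (A i) (M i) ∧ cost e (A i) (M i) ≤ c) :
    ∃ A' M', Good e A' M' ∧ cost e A' M' ≤ s.card * c ∧ ∀ i ∈ s, A' ≤ A i ∧ M i ≤ M' := by
  classical
  have : FiniteDimensional F V := Module.Finite.of_finite
  induction s using Finset.induction_on with
  | empty => exact ⟨Fix e, Zs e, ⟨le_rfl, le_rfl⟩, by simp [cost], by simp⟩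
  | insert a s ha ih =>
    obtain ⟨A', M', h1, h2, h3⟩ := ih fun i hi => h i (Finset.mem_insert_of_mem hi)
    obtain ⟨h4, h5⟩ := h a (Finset.mem_insert_self _ _)
    obtain ⟨h6, h7⟩ := cost_inf_sup h4 h1
    refine ⟨_, _, h6, ?_, ?_⟩
    · rw [Finset.card_insert_of_notMem ha]; push_cast; linarith
    · intro i hi
      rcases Finset.mem_insert.1 hi with rfl | hi
      · exact ⟨inf_le_left, le_sup_left⟩
      · exact ⟨inf_le_right.trans (h3 i hi).1, (h3 i hi).2.trans le_sup_right⟩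

end Vale.Agent.P343
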