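import Vale.Agent.P343.LinRel

namespace Vale.Agent.P343

open Module

/-- binary relations under composition -/
def RM (P : Type) := P → P → Prop

instance (P : Type) : Monoid (RM P) where
  mul R R' := fun u w => ∃ v, R u v ∧ R' v w
  one := fun u v => u = v
  mul_assoc x y z := by
    funext u w
    apply propext
    constructor
    · rintro ⟨v, ⟨t, h1, h2⟩, h3⟩; exact ⟨t, h1, v, h2, h3⟩
    · rintro ⟨t, h1, v, h2, h3⟩; exact ⟨v, ⟨t, h1, h2⟩, h3⟩
  one_mul x := by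
    funext u w
    apply propext
    constructor
    · rintro ⟨v, h1, h2⟩; cases h1; exact h2
    · intro h; exact ⟨u, rfl, h⟩
  mul_one x := by
    funext u w
    apply propext
    constructor
    · rintro ⟨v, h1, h2⟩; cases h2; exact h1
    · intro h; exact ⟨w, h, rfl⟩

theorem RM.mul_apply {P : Type} (R R' : RM P) (u w : P) :
    (R * R') u w ↔ ∃ v, R u v ∧ R' v w := Iff.rfl

theorem RM.one_apply {P : Type} (u w : P) : (1 : RM P) u w ↔ u = w := Iff.rfl

theorem RM.ext' {P : Type} {R R' : RM P} (h : ∀ u v, R u v ↔ R' u v) : R = R' := by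
  funext u v; exact propext (h u v)

instance (P : Type) [Finite P] : Finite (RM P) := inferInstanceAs (Finite (P → P → Prop))

/-- identity plus one edge -/
def tv {P : Type} (a b : P) : RM P := fun u v => u = v ∨ (u = a ∧ v = b)

/-- graph of a permutation -/
def gr {P : Type} (σ : Equiv.Perm P) : RM P := fun u v => σ u = v

theorem pow_idem {M : Type*} [Monoid M] {a : M} (h : a * a = a) {n : ℕ} (hn : 1 ≤ n) :
    a ^ n = a := by
  induction n, hn using Nat.le_induction with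
  | base => simp
  | succ n _ ih => rw [pow_succ, ih, h]

theorem sand_pow {M : Type*} [Monoid M] {e y : M} (he : e * e = e) (h : y = e * y * e) {n : ℕ}
    (hn : 1 ≤ n) : y ^ n = e * y ^ n * e := by
  obtain ⟨m, rfl⟩ : ∃ m, n = m + 1 := ⟨n - 1, by omega⟩
  have h1 : e * y ^ (m + 1) = y ^ (m + 1) := by rw [pow_succ', ← mul_assoc, left_of_sand he h]
  have h2 : y ^ (m + 1) * e = y ^ (m + 1) := by rw [pow_succ, mul_assoc, right_of_sand he h]
  rw [h1, h2]

theorem sand_sand {M : Type*} [Monoid M] {e : M} (he : e * e = e) (y : M) :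
    e * y * e = e * (e * y * e) * e := by
  simp only [← mul_assoc, he]; simp only [mul_assoc, he]

theorem tv_idem {P : Type} {a b : P} (h : a ≠ b) : tv a b * tv a b = tv a b := by
  refine RM.ext' fun u w => ?_
  simp only [RM.mul_apply, tv]
  constructor
  · rintro ⟨v, h1 | h1, h2 | h2⟩
    · left; rw [h1, h2]
    · right; rw [h1]; exact h2
    · right; rw [← h2]; exact h1
    · exact absurd (h2.1.symm.trans h1.2) h
  · intro h1; exact ⟨u, Or.inl rfl, h1⟩

variable {F : Type} [Field F] {V : Type} [AddCommGroup V] [Module F V]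

/-- a system -/
structure Sys {P : Type} (S : LR F V → RM P → Prop) : Prop where
  mul : ∀ {y z R R'}, S y R → S z R' → S (y * z) (R * R')
  surj : ∀ R, ∃ y, S y R
  func : ∀ {y R R'}, S y R → S y R' → R = R'

theorem Sys.pow {P : Type} {S : LR F V → RM P → Prop} (hS : Sys S) {y R} (h : S y R) {n : ℕ}
    (hn : 1 ≤ n) : S (y ^ n) (R ^ n) := by
  induction n, hn using Nat.le_induction with
  | base => simpa using h
  | succ n _ ih => rw [pow_succ, pow_succ]; exact hS.mul ih h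

theorem Sys.conj [Finite V] {P : Type} [Finite P] {S : LR F V → RM P → Prop} (hS : Sys S)
    {e0 y0 : LR F V} (he0 : e0 * e0 = e0) (hS0 : S e0 1)
    (hmin : ∀ f, f * f = f → f = e0 * f * e0 → S f 1 → rk e0 ≤ rk f)
    {a b : P} (hab : a ≠ b) (hy0 : y0 * y0 = y0) (hy1 : y0 = e0 * y0 * e0) (hy2 : S y0 (tv a b))
    {i j : P} (hij : i ≠ j) :
    ∃ x, x * x = x ∧ x = e0 * x * e0 ∧ S x (tv i j) ∧ rk y0 ≤ rk x := by
  classical
  obtain ⟨σ, hσ1, hσ2⟩ : ∃ σ : Equiv.Perm P, σ a = i ∧ σ b = j := by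
    refine ⟨Equiv.swap (Equiv.swap a i b) j * Equiv.swap a i, ?_, by simp⟩
    have : i ≠ Equiv.swap a i b := by
      intro h
      apply hab
      apply (Equiv.swap a i).injective
      rw [← h]; simp
    simp [Equiv.swap_apply_of_ne_of_ne this hij]
  obtain ⟨s, hs⟩ := hS.surj (gr σ)
  have hg : S (e0 * s * e0) (gr σ) := by simpa using hS.mul (hS.mul hS0 hs) hS0
  set g := e0 * s * e0 with hgdef
  have hg1 : g = e0 * g * e0 := sand_sand he0 s
  obtain ⟨n, hn, hid⟩ := exists_idem_pow (g, gr σ)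
  have hid1 : g ^ n * g ^ n = g ^ n := by simpa using congrArg Prod.fst hid
  have hid2 : gr σ ^ n * gr σ ^ n = gr σ ^ n := by simpa using congrArg Prod.snd hid
  have hu1 : gr σ * gr σ⁻¹ = 1 := RM.ext' fun u v => by
    simp [RM.mul_apply, gr, RM.one_apply]
  have hu2 : gr σ⁻¹ * gr σ = 1 := RM.ext' fun u v => by
    simp [RM.mul_apply, gr, RM.one_apply]
  have hunit : IsUnit (gr σ) := ⟨⟨gr σ, gr σ⁻¹, hu1, hu2⟩, rfl⟩
  have h1 : gr σ ^ n = 1 := (hunit.pow n).mul_left_cancel (by rw [hid2, mul_one])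
  have h2 : g ^ n = e0 := eq_of_rk_le he0 hid1 (sand_pow he0 hg1 hn)
    (hmin _ hid1 (sand_pow he0 hg1 hn) (h1 ▸ hS.pow hg hn))
  obtain ⟨m, rfl⟩ : ∃ m, n = m + 1 := ⟨n - 1, by omega⟩
  set g' := g ^ (2 * m + 1) with hg'
  have h3 : g * g' = e0 := by
    rw [hg', ← pow_succ', show 2 * m + 1 + 1 = (m + 1) + (m + 1) by ring, pow_add, h2, he0]
  have h4 : gr σ ^ (2 * m + 1) = gr σ⁻¹ := by
    have : gr σ ^ (2 * m + 1) * gr σ = 1 := by
      rw [← pow_succ, show 2 * m + 1 + 1 = (m + 1) + (m + 1) by ring, pow_add, h1, mul_one]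
    calc gr σ ^ (2 * m + 1) = gr σ ^ (2 * m + 1) * (gr σ * gr σ⁻¹) := by rw [hu1, mul_one]
      _ = gr σ⁻¹ := by rw [← mul_assoc, this, one_mul]
  have hg'S : S g' (gr σ⁻¹) := h4 ▸ hS.pow hg (by omega)
  have hg'1 : g' = e0 * g' * e0 := sand_pow he0 hg1 (by omega)
  have h5 : g' * y0 * g * (g' * y0 * g) = g' * y0 * g := by
    calc g' * y0 * g * (g' * y0 * g) = g' * (y0 * (g * g') * y0) * g := by simp only [mul_assoc]
      _ = g' * y0 * g := by rw [h3, right_of_sand he0 hy1, hy0]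
  refine ⟨g' * y0 * g, h5, ?_, ?_, rk_le_of_J (a := g) (b := g') h5 ?_⟩
  · simp only [← mul_assoc]
    rw [left_of_sand he0 hg'1, mul_assoc _ g e0, right_of_sand he0 hg1]
  · have : gr σ⁻¹ * tv a b * gr σ = tv i j := RM.ext' fun u v => by
      simp only [RM.mul_apply, gr, tv, exists_eq_left']
      constructor
      · rintro ⟨t, h | h, rfl⟩
        · left; rw [← h]; simp
        · right; rw [h.2, hσ2, ← hσ1, ← h.1]; simp
      · rintro (h | h)
        · exact ⟨_, Or.inl rfl, by simp [h]⟩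
        · exact ⟨b, Or.inr ⟨by rw [h.1, ← hσ1]; simp, rfl⟩, by rw [hσ2, h.2]⟩
    exact this ▸ hS.mul (hS.mul hg'S hy2) hg
  · calc y0 = (g * g') * y0 * (g * g') := by rw [h3]; exact hy1
      _ = _ := by simp only [mul_assoc]

theorem Sys.restrict {P : Type} {S : LR F V → RM P → Prop} (hS : Sys S) (Src Snk : P → Prop) :
    Sys (P := {u // ¬ Src u ∧ ¬ Snk u}) (fun y R => ∃ Z, S y Z ∧
      (∀ u v, Z u v → (Src v → Src u) ∧ (Snk u → Snk v)) ∧ R = fun u v => Z u.1 v.1) where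
  mul := by
    rintro y z R R' ⟨Z, h1, h2, rfl⟩ ⟨Z', h1', h2', rfl⟩
    refine ⟨Z * Z', hS.mul h1 h1', ?_, RM.ext' fun u w => ?_⟩
    · rintro u w ⟨v, h3, h4⟩
      exact ⟨fun h => (h2 u v h3).1 ((h2' v w h4).1 h), fun h => (h2' v w h4).2 ((h2 u v h3).2 h)⟩
    · constructor
      · rintro ⟨v, h3, h4⟩; exact ⟨v.1, h3, h4⟩
      · rintro ⟨v, h3, h4⟩
        exact ⟨⟨v, fun h => u.2.1 ((h2 _ _ h3).1 h), fun h => w.2.2 ((h2' _ _ h4).2 h)⟩, h3, h4⟩
  surj R := by
    obtain ⟨y, hy⟩ := hS.surj (fun u v => ∃ hu hv, R ⟨u, hu⟩ ⟨v, hv⟩)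
    refine ⟨y, _, hy, ?_, RM.ext' fun u v => ?_⟩
    · rintro u v ⟨hu, hv, _⟩
      exact ⟨fun h => absurd h hv.1, fun h => absurd h hu.2⟩
    · exact ⟨fun h => ⟨u.2, v.2, h⟩, fun ⟨_, _, h⟩ => h⟩
  func := by
    rintro y R R' ⟨Z, h1, _, rfl⟩ ⟨Z', h1', _, rfl⟩
    rw [hS.func h1 h1']

/-- the statement proved by induction -/
def Claim (F V : Type) [Field F] [AddCommGroup V] [Module F V] (n : ℕ) : Prop :=
  ∀ (P : Type) [Fintype P], 31 * n + 2 ≤ Fintype.card P → ∀ S : LR F V → RM P → Prop, Sys S →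
    ∀ a b : P, a ≠ b → ∀ e x : LR F V, e * e = e → x * x = x → x = e * x * e → S e 1 →
      S x (tv a b) → rk x + 2 ^ n ≤ rk e

theorem claim_zero [Finite V] : Claim F V 0 := by
  intro P _ _ S hS a b hab e x he hx hxe h1 h2
  by_contra hc
  have h3 : x = e := eq_of_rk_le he hx hxe (by omega)
  have h4 : tv a b = 1 := hS.func h2 (h3 ▸ h1)
  have h5 : tv a b a b := Or.inr ⟨rfl, rfl⟩
  rw [h4] at h5
  exact hab h5

/-- deletion of `p` plus a set of edges -/
def EE {P : Type} (α β : Fin 16 → P) (p : P) (G : Finset (Fin 16 × Fin 16)) : RM P :=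
  fun u v => (u = v ∧ u ≠ p) ∨ ∃ q ∈ G, u = α q.1 ∧ v = β q.2

theorem EE_step {P : Type} {α β : Fin 16 → P} {p : P} (h1 : ∀ i j, α i ≠ β j) (h2 : ∀ i, α i ≠ p)
    (h3 : ∀ j, β j ≠ p) (G : Finset (Fin 16 × Fin 16)) (q : Fin 16 × Fin 16) :
    EE α β p G * (tv (α q.1) p * tv p (β q.2)) * EE α β p G = EE α β p (insert q G) := by
  refine RM.ext' fun u w => ?_
  simp only [RM.mul_apply, EE, tv, Finset.mem_insert]
  constructor
  · rintro ⟨u3, ⟨u1, ha, u2, hb, hc⟩, hd⟩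
    have hu1 : u1 ≠ p := by
      rcases ha with ha | ⟨r, _, _, ha⟩
      · rw [← ha.1]; exact ha.2
      · rw [ha]; exact h3 _
    have hu3 : u3 ≠ p := by
      rcases hd with hd | ⟨r, _, hd, _⟩
      · exact hd.2
      · rw [hd]; exact h2 _
    rcases hb with hb | hb <;> rcases hc with hc | hc
    · subst hb; subst hc
      rcases ha with ha | ⟨r, hr, ha1, ha2⟩
      · rcases hd with hd | ⟨r, hr, hd1, hd2⟩
        · left; exact ⟨ha.1.trans hd.1, ha.2⟩
        · right; exact ⟨r, Or.inr hr, ha.1.trans hd1, hd2⟩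
      · rcases hd with hd | ⟨r', hr', hd1, hd2⟩
        · right; exact ⟨r, Or.inr hr, ha1, hd.1 ▸ ha2⟩
        · exact absurd (hd1.symm.trans ha2) (h1 _ _)
    · exact absurd (hb.trans hc.1) hu1
    · exact absurd (hc.symm.trans hb.2) hu3
    · right
      refine ⟨q, Or.inl rfl, ?_, ?_⟩
      · rcases ha with ha | ⟨r, hr, ha1, ha2⟩
        · exact ha.1.trans hb.1
        · exact absurd (hb.1.symm.trans ha2) (h1 _ _)
      · rcases hd with hd | ⟨r, hr, hd1, hd2⟩
        · exact hd.1.symm.trans hc.2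
        · exact absurd (hd1.symm.trans hc.2) (h1 _ _)
  · rintro (h | ⟨r, hr | hr, h4, h5⟩)
    · exact ⟨u, ⟨u, Or.inl ⟨rfl, h.2⟩, u, Or.inl rfl, Or.inl rfl⟩, Or.inl h⟩
    · subst hr
      exact ⟨w, ⟨u, Or.inl ⟨rfl, h4 ▸ h2 _⟩, p, Or.inr ⟨h4, rfl⟩, Or.inr ⟨rfl, h5⟩⟩,
        Or.inl ⟨rfl, h5 ▸ h3 _⟩⟩
    · exact ⟨u, ⟨u, Or.inl ⟨rfl, h4 ▸ h2 _⟩, u, Or.inl rfl, Or.inl rfl⟩, Or.inr ⟨r, hr, h4, h5⟩⟩

theorem EE_idem {P : Type} {α β : Fin 16 → P} {p : P} (h1 : ∀ i j, α i ≠ β j) (h2 : ∀ i, α i ≠ p)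
    (G : Finset (Fin 16 × Fin 16)) : EE α β p G * EE α β p G = EE α β p G := by
  refine RM.ext' fun u w => ?_
  simp only [RM.mul_apply, EE]
  constructor
  · rintro ⟨v, ha | ⟨r, hr, ha1, ha2⟩, hd⟩
    · rw [ha.1]; exact hd
    · rcases hd with hd | ⟨r', hr', hd1, hd2⟩
      · right; exact ⟨r, hr, ha1, hd.1 ▸ ha2⟩
      · exact absurd (hd1.symm.trans ha2) (h1 _ _)
  · rintro (h | ⟨r, hr, h4, h5⟩)
    · exact ⟨u, Or.inl ⟨rfl, h.2⟩, Or.inl h⟩
    · exact ⟨u, Or.inl ⟨rfl, h4 ▸ h2 _⟩, Or.inr ⟨r, hr, h4, h5⟩⟩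

theorem step_loss [Finite V] {n : ℕ} (ih : Claim F V n) {P : Type} [Fintype P]
    (hP : 31 * (n + 1) + 2 ≤ Fintype.card P) {S : LR F V → RM P → Prop} (hS : Sys S)
    {α β : Fin 16 → P} {p : P} (hα : Function.Injective α) (hβ : Function.Injective β)
    (h1 : ∀ i j, α i ≠ β j) (h2 : ∀ i, α i ≠ p) (h3 : ∀ j, β j ≠ p)
    {G : Finset (Fin 16 × Fin 16)} {q : Fin 16 × Fin 16} (hq : q ∉ G) {f f' : LR F V}
    (hf : f * f = f) (hf' : f' * f' = f') (hff : f' = f * f' * f) (hSf : S f (EE α β p G))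
    (hSf' : S f' (EE α β p (insert q G))) : rk f' + 2 ^ n ≤ rk f := by
  classical
  let Src : P → Prop := fun u => ∃ i, i ≠ q.1 ∧ u = α i
  let Snk : P → Prop := fun u => u = p ∨ ∃ j, j ≠ q.2 ∧ u = β j
  have hcard : 31 * n + 2 ≤ Fintype.card {u // ¬ Src u ∧ ¬ Snk u} := by
    let Bad : Finset P := (Finset.univ.erase q.1).image α ∪
      insert p ((Finset.univ.erase q.2).image β)
    have hb : Bad.card ≤ 31 := by
      have e1 : ((Finset.univ.erase q.1).image α).card ≤ 15 :=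
        Finset.card_image_le.trans (by simp)
      have e2 : ((Finset.univ.erase q.2).image β).card ≤ 15 :=
        Finset.card_image_le.trans (by simp)
      have e3 := Finset.card_insert_le p ((Finset.univ.erase q.2).image β)
      exact (Finset.card_union_le _ _).trans (by omega)
    have : Fintype.card {u // ¬ Src u ∧ ¬ Snk u} = Badᶜ.card := by
      rw [Fintype.card_subtype]
      congr 1
      ext u
      simp only [Src, Snk, Bad, Finset.mem_filter, Finset.mem_univ, true_and, Finset.mem_compl,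
        Finset.mem_union, Finset.mem_image, Finset.mem_erase, and_true, Finset.mem_insert, not_or,
        eq_comm (a := u)]
    rw [this, Finset.card_compl]
    omega
  have hT : ∀ G' : Finset (Fin 16 × Fin 16), ∀ u v, EE α β p G' u v →
      (Src v → Src u) ∧ (Snk u → Snk v) := by
    rintro G' u v (h | ⟨r, _, h4, h5⟩)
    · rw [h.1]; exact ⟨id, id⟩
    · refine ⟨fun ⟨i, _, h⟩ => absurd (h.symm.trans h5) (h1 _ _), ?_⟩
      rintro (h | ⟨j, _, h⟩)
      · exact absurd (h4.symm.trans h) (h2 _)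
      · exact absurd (h4.symm.trans h) (h1 _ _)
  have ha : ¬ Src (α q.1) ∧ ¬ Snk (α q.1) :=
    ⟨fun ⟨i, h, h'⟩ => h (hα h').symm, by
      rintro (h | ⟨j, _, h⟩)
      · exact h2 _ h
      · exact h1 _ _ h⟩
  have hb : ¬ Src (β q.2) ∧ ¬ Snk (β q.2) :=
    ⟨fun ⟨i, _, h'⟩ => h1 _ _ h'.symm, by
      rintro (h | ⟨j, h, h'⟩)
      · exact h3 _ h
      · exact h (hβ h').symm⟩
  have key : ∀ (u v : {u // ¬ Src u ∧ ¬ Snk u}) (r : Fin 16 × Fin 16), u.1 = α r.1 →
      v.1 = β r.2 → r = q := by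
    intro u v r h4 h5
    ext1
    · by_contra h; exact u.2.1 ⟨_, h, h4⟩
    · by_contra h; exact v.2.2 (Or.inr ⟨_, h, h5⟩)
  refine ih _ hcard _ (hS.restrict Src Snk) ⟨_, ha⟩ ⟨_, hb⟩
    (fun h => h1 _ _ (congrArg Subtype.val h)) f f' hf hf' hff ⟨_, hSf, hT _, ?_⟩
    ⟨_, hSf', hT _, ?_⟩
  · refine RM.ext' fun u v => ⟨fun h => Or.inl ⟨congrArg Subtype.val h,
      fun h => u.2.2 (Or.inl h)⟩, ?_⟩
    rintro (h | ⟨r, hr, h4, h5⟩)
    · exact Subtype.ext h.1
    · exact absurd (key u v r h4 h5 ▸ hr) hq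
  · refine RM.ext' fun u v => ⟨?_, ?_⟩
    · rintro (h | h)
      · exact Or.inl ⟨congrArg Subtype.val h, fun h => u.2.2 (Or.inl h)⟩
      · exact Or.inr ⟨q, Finset.mem_insert_self _ _, congrArg Subtype.val h.1,
          congrArg Subtype.val h.2⟩
    · rintro (h | ⟨r, hr, h4, h5⟩)
      · exact Or.inl (Subtype.ext h.1)
      · obtain rfl := key u v r h4 h5
        exact Or.inr ⟨Subtype.ext h4, Subtype.ext h5⟩

theorem claim_succ [Finite V] {n : ℕ} (ih : Claim F V n) : Claim F V (n + 1) := by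
  classical
  intro P _ hP S hS a b hab e x he hx hxe hSe hSx
  obtain ⟨e0, ⟨he0, he0e, hS0⟩, hmin⟩ := Set.exists_min_image
    {f : LR F V | f * f = f ∧ f = e * f * e ∧ S f 1} rk (Set.toFinite _)
    ⟨e, he, by rw [he, he], hSe⟩
  have hmin' : ∀ f, f * f = f → f = e0 * f * e0 → S f 1 → rk e0 ≤ rk f := by
    intro f h1 h2 h3
    refine hmin f ⟨h1, ?_, h3⟩
    calc f = (e * e0) * f * (e0 * e) := by
          rw [left_of_sand he he0e, right_of_sand he he0e]; exact h2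
      _ = e * (e0 * f * e0) * e := by simp only [mul_assoc]
      _ = e * f * e := by rw [← h2]
  set d := rk e - rk x with hd
  obtain ⟨c1, c2, c3, -, -⟩ := lemma1 he hx hxe
  obtain ⟨A1, M1, g1, g2, g3⟩ := lemma2 he he0 he0e c2
  obtain ⟨m, hm, hy0⟩ := exists_idem_pow (e0 * x * e0)
  have hcl := (g3 x c1).pow he0 hm
  have hrk := rk_ge_of_cl he0 hy0 g1 hcl
  have hSy : S ((e0 * x * e0) ^ m) (tv a b) := by
    have := hS.pow (hS.mul (hS.mul hS0 hSx) hS0) hm
    rwa [one_mul, mul_one, pow_idem (tv_idem hab) hm] at this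
  have cheap : ∀ i j : P, i ≠ j → ∃ x A M, S x (tv i j) ∧ Cl e0 A M x ∧ Good e0 A M ∧
      cost e0 A M ≤ 4 * d := by
    intro i j hij
    obtain ⟨x', h1, h2, h3, h4⟩ := hS.conj he0 hS0 hmin' hab hy0 hcl.1 hSy hij
    obtain ⟨c1, c2, c3, -, -⟩ := lemma1 he0 h1 h2
    exact ⟨x', _, _, h3, c1, c2, by omega⟩
  obtain ⟨emb⟩ : Nonempty (Option (Fin 16 ⊕ Fin 16) ↪ P) :=
    Function.Embedding.nonempty_of_card_le (by simp; omega)
  set α : Fin 16 → P := fun i => emb (some (Sum.inl i)) with hαdef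
  set β : Fin 16 → P := fun i => emb (some (Sum.inr i)) with hβdef
  set p : P := emb none with hpdef
  have hα : Function.Injective α := fun i j h => by simpa [hαdef] using h
  have hβ : Function.Injective β := fun i j h => by simpa [hβdef] using h
  have h1 : ∀ i j, α i ≠ β j := fun i j => by simp [hαdef, hβdef]
  have h2 : ∀ i, α i ≠ p := fun i => by simp [hαdef, hpdef]
  have h3 : ∀ i, β i ≠ p := fun i => by simp [hβdef, hpdef]
  have cheap2 : ∀ k : Fin 16 ⊕ Fin 16, ∃ x A M,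
      S x (Sum.elim (fun i => tv (α i) p) (fun j => tv p (β j)) k) ∧ Cl e0 A M x ∧ Good e0 A M ∧
      cost e0 A M ≤ 4 * d := by
    rintro (i | j)
    · exact cheap _ _ (h2 i)
    · exact cheap _ _ (h3 j).symm
  choose xx AA MM k1 k2 k3 k4 using cheap2
  obtain ⟨A2, M2, l1, l2, l3⟩ := cost_family Finset.univ AA MM (4 * d)
    fun k _ => ⟨k3 k, k4 k⟩
  have k5 : ∀ k, Cl e0 A2 M2 (xx k) := fun k =>
    (k2 k).mono (l3 k (Finset.mem_univ k)).1 (l3 k (Finset.mem_univ k)).2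
  obtain ⟨s, hs⟩ := hS.surj (EE α β p ∅)
  obtain ⟨m', hm', hD⟩ := exists_idem_pow (e0 * s * e0)
  have hSD : S ((e0 * s * e0) ^ m') (EE α β p ∅) := by
    have := hS.pow (hS.mul (hS.mul hS0 hs) hS0) hm'
    rwa [one_mul, mul_one, pow_idem (EE_idem h1 h2 _) hm'] at this
  have hDe : (e0 * s * e0) ^ m' = e0 * (e0 * s * e0) ^ m' * e0 :=
    sand_pow he0 (sand_sand he0 s) hm'
  set D := (e0 * s * e0) ^ m' with hDdef
  obtain ⟨A3, M3, n1, n2, n3⟩ := lemma2 he0 hD hDe l1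
  have chain : ∀ G : Finset (Fin 16 × Fin 16), ∃ f, f * f = f ∧ Cl D A3 M3 f ∧
      S f (EE α β p G) ∧ rk f + G.card * 2 ^ n ≤ rk D := by
    intro G
    induction G using Finset.induction_on with
    | empty => exact ⟨D, hD, Cl.self hD n1, hSD, by simp⟩
    | insert q G hq ihG =>
      obtain ⟨f, f1, f2, f3, f4⟩ := ihG
      set w := xx (Sum.inl q.1) * xx (Sum.inr q.2) with hw
      obtain ⟨k, hk, hf'⟩ := exists_idem_pow (f * w * f)
      have hS' : S ((f * w * f) ^ k) (EE α β p (insert q G)) := by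
        have := hS.pow (hS.mul (hS.mul f3 (hS.mul (k1 (Sum.inl q.1)) (k1 (Sum.inr q.2)))) f3) hk
        simp only [Sum.elim_inl, Sum.elim_inr] at this
        rwa [EE_step h1 h2 h3, pow_idem (EE_idem h1 h2 _) hk] at this
      have hcl' : Cl D A3 M3 (f * w * f) := by
        have := (f2.mul hD (n3 w ((k5 _).mul he0 (k5 _)))).mul hD f2
        rwa [← mul_assoc, ← mul_assoc, right_of_sand hD f2.1, mul_assoc _ D f,
          left_of_sand hD f2.1] at this
      refine ⟨_, hf', hcl'.pow hD hk, hS', ?_⟩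
      have := step_loss ih hP hS hα hβ h1 h2 h3 hq f1 hf' (sand_pow f1 (sand_sand f1 w) hk) f3 hS'
      rw [Finset.card_insert_of_notMem hq]
      push_cast
      linarith
  obtain ⟨f, f1, f2, -, f4⟩ := chain Finset.univ
  have := rk_ge_of_cl hD f1 n1 f2
  simp only [Finset.card_univ, Fintype.card_prod, Fintype.card_fin, Fintype.card_sum] at f4 l2
  push_cast at f4 l2
  rw [pow_succ]
  linarith

theorem claim_all [Finite V] (n : ℕ) : Claim F V n := by
  induction n with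
  | zero => exact claim_zero
  | succ n ih => exact claim_succ ih

end Vale.Agent.P343
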